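import Vale.Agent.P166.Analysis
import Vale.Agent.P166F.Model

/-!
P166: snapping a compactly supported spectrum to finitely many atoms along a grid with null boundaries.
-/

namespace Vale.Agent.P166F

open MeasureTheory Filter Set
open scoped Topology
open Vale.Agent.P166 (Admissible ramp ramp_eq_zero ramp_eq_one ramp_nonneg ramp_le_one)

variable {μ : Measure ℝ} {Λ : (N : ℕ) → Fin N → ℝ}

/-- The share of the entries below a null point tends to the mass below it. -/
lemma tendsto_share_lt [IsProbabilityMeasure μ] (hΛ : Admissible μ Λ) {x : ℝ} (hx : μ {x} = 0) :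
    Tendsto (fun N => ((Finset.univ.filter fun i => Λ N i < x).card : ℝ) / N) atTop
      (𝓝 (μ.real (Iio x))) := by
  set d : ℕ → ℝ := fun n => 1 / ((n : ℝ) + 1) with hd
  have hd0 : ∀ n, 0 < d n := fun n => by positivity
  have hlim : Tendsto d atTop (𝓝 0) := tendsto_one_div_add_atTop_nhds_zero_nat
  have hsmall : ∀ t : ℝ, 0 < t → ∀ᶠ n in atTop, d n ≤ t := fun t ht =>
    hlim.eventually (eventually_le_nhds ht)
  have hup : Tendsto (fun n => ∫ y, (1 - ramp x (d n) y) ∂μ) atTop (𝓝 (μ.real (Iio x))) := by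
    have e : μ.real (Iio x) = ∫ y, (Iic x).indicator (fun _ => (1 : ℝ)) y ∂μ := by
      rw [integral_indicator measurableSet_Iic, setIntegral_const, smul_eq_mul, mul_one]
      exact measureReal_congr (Iio_ae_eq_Iic' hx)
    rw [e]
    refine tendsto_integral_of_dominated_convergence (fun _ => 1) (fun n => by fun_prop)
      (integrable_const _) (fun n => Eventually.of_forall fun y => ?_) (Eventually.of_forall fun y => ?_)
    · rw [Real.norm_eq_abs, abs_le]
      constructor <;> linarith [ramp_nonneg x (d n) y, ramp_le_one x (d n) y]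
    · rcases le_or_gt y x with h | h
      · simp [indicator_of_mem (show y ∈ Iic x from h), ramp_eq_zero (hd0 _) h]
      · refine Tendsto.congr' ((hsmall _ (sub_pos.2 h)).mono fun n hn => ?_) tendsto_const_nhds
        simp [indicator_of_notMem (show y ∉ Iic x from not_le.2 h),
          ramp_eq_one (hd0 n) (show x + d n ≤ y by linarith)]
  have hlo : Tendsto (fun n => ∫ y, (1 - ramp (x - d n) (d n) y) ∂μ) atTop (𝓝 (μ.real (Iio x))) := by
    have e : μ.real (Iio x) = ∫ y, (Iio x).indicator (fun _ => (1 : ℝ)) y ∂μ := by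
      rw [integral_indicator measurableSet_Iio, setIntegral_const, smul_eq_mul, mul_one]
    rw [e]
    refine tendsto_integral_of_dominated_convergence (fun _ => 1) (fun n => by fun_prop)
      (integrable_const _) (fun n => Eventually.of_forall fun y => ?_) (Eventually.of_forall fun y => ?_)
    · rw [Real.norm_eq_abs, abs_le]
      constructor <;> linarith [ramp_nonneg (x - d n) (d n) y, ramp_le_one (x - d n) (d n) y]
    · rcases lt_or_ge y x with h | h
      · refine Tendsto.congr' ((hsmall _ (sub_pos.2 h)).mono fun n hn => ?_) tendsto_const_nhds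
        simp [indicator_of_mem (show y ∈ Iio x from h),
          ramp_eq_zero (hd0 n) (show y ≤ x - d n by linarith)]
      · simp [indicator_of_notMem (show y ∉ Iio x from not_lt.2 h),
          ramp_eq_one (hd0 _) (show x - d _ + d _ ≤ y by rw [sub_add_cancel]; exact h)]
  have hw : ∀ t h : ℝ, Tendsto (fun N : ℕ => (N : ℝ)⁻¹ * ∑ i, (1 - ramp t h (Λ N i))) atTop
      (𝓝 (∫ y, (1 - ramp t h y) ∂μ)) := fun t h => hΛ.weak (1 - ramp t h)
  rw [Metric.tendsto_nhds]
  intro e he
  obtain ⟨n, hn⟩ := ((hup.eventually_lt_const (show μ.real (Iio x) < μ.real (Iio x) + e / 2 by linarith)).and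
    (hlo.eventually_const_lt (show μ.real (Iio x) - e / 2 < μ.real (Iio x) by linarith))).exists
  filter_upwards [(hw x (d n)).eventually_lt_const
      (show ∫ y, (1 - ramp x (d n) y) ∂μ < (∫ y, (1 - ramp x (d n) y) ∂μ) + e / 2 by linarith),
    (hw (x - d n) (d n)).eventually_const_lt
      (show (∫ y, (1 - ramp (x - d n) (d n) y) ∂μ) - e / 2 < ∫ y, (1 - ramp (x - d n) (d n) y) ∂μ by
        linarith)] with N h1 h2
  have hc : ((Finset.univ.filter fun i => Λ N i < x).card : ℝ) =
      ∑ i, if Λ N i < x then (1 : ℝ) else 0 := by simp [Finset.sum_boole]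
  have u : ((Finset.univ.filter fun i => Λ N i < x).card : ℝ) / N ≤
      (N : ℝ)⁻¹ * ∑ i, (1 - ramp x (d n) (Λ N i)) := by
    rw [hc, div_eq_inv_mul]
    refine mul_le_mul_of_nonneg_left (Finset.sum_le_sum fun i _ => ?_) (by positivity)
    split_ifs with h
    · simp [ramp_eq_zero (hd0 n) h.le]
    · linarith [ramp_le_one x (d n) (Λ N i)]
  have l : (N : ℝ)⁻¹ * ∑ i, (1 - ramp (x - d n) (d n) (Λ N i)) ≤
      ((Finset.univ.filter fun i => Λ N i < x).card : ℝ) / N := by
    rw [hc, div_eq_inv_mul]
    refine mul_le_mul_of_nonneg_left (Finset.sum_le_sum fun i _ => ?_) (by positivity)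
    split_ifs with h
    · linarith [ramp_nonneg (x - d n) (d n) (Λ N i)]
    · simp [ramp_eq_one (hd0 n) (show x - d n + d n ≤ Λ N i by linarith [not_lt.1 h])]
  rw [Real.dist_eq, abs_lt]
  constructor <;> linarith [hn.1, hn.2]

/-- The middle of the cell of `x` in the grid of step `e` through `c`. -/
noncomputable def snap (c e x : ℝ) : ℝ := c + e * ⌊(x - c) / e⌋ + e / 2

lemma monotone_snap (c : ℝ) {e : ℝ} (he : 0 < e) : Monotone (snap c e) := fun x y h => by
  have h1 : (⌊(x - c) / e⌋ : ℝ) ≤ ⌊(y - c) / e⌋ :=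
    Int.cast_le.2 (Int.floor_le_floor (by gcongr))
  have := mul_le_mul_of_nonneg_left h1 he.le
  unfold snap
  linarith

lemma abs_snap_sub_le (c : ℝ) {e : ℝ} (he : 0 < e) (x : ℝ) : |snap c e x - x| ≤ e := by
  have h1 := Int.floor_le ((x - c) / e)
  have h2 := Int.lt_floor_add_one ((x - c) / e)
  rw [le_div_iff₀ he] at h1
  rw [div_lt_iff₀ he] at h2
  unfold snap
  rw [abs_le]
  constructor <;> linarith

lemma snap_eq_iff (c : ℝ) {e : ℝ} (he : 0 < e) (x : ℝ) (z : ℤ) :
    snap c e x = c + e * z + e / 2 ↔ c + e * z ≤ x ∧ x < c + e * (z + 1) := by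
  have h : snap c e x = c + e * z + e / 2 ↔ ⌊(x - c) / e⌋ = z := by
    unfold snap
    rw [add_left_inj, add_right_inj, mul_right_inj' he.ne', Int.cast_inj]
  rw [h, Int.floor_eq_iff, le_div_iff₀ he, div_lt_iff₀ he]
  constructor <;> rintro ⟨h1, h2⟩ <;> constructor <;> linarith

/-- A grid whose points are null and different from the ends of the support. -/
lemma exists_offset [IsProbabilityMeasure μ] {e : ℝ} :
    ∃ c : ℝ, ∀ z : ℤ, μ {c + e * z} = 0 ∧ c + e * z ≠ sSup μ.support ∧ c + e * z ≠ sInf μ.support := by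
  have hc : ({y : ℝ | 0 < μ {a | id a = y}} ∪ {sSup μ.support, sInf μ.support}).Countable :=
    (Measure.countable_meas_level_set_pos measurable_id).union ((Set.countable_singleton _).insert _)
  set B := {y : ℝ | 0 < μ {a | id a = y}} ∪ {sSup μ.support, sInf μ.support}
  have hU : (⋃ z : ℤ, (fun y => y - e * z) '' B).Countable := countable_iUnion fun z => hc.image _
  obtain ⟨c, hcn⟩ : (⋃ z : ℤ, (fun y => y - e * z) '' B)ᶜ.Nonempty := by
    rw [nonempty_compl]
    intro h
    exact Cardinal.not_countable_real (h ▸ hU)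
  refine ⟨c, fun z => ?_⟩
  have hB : c + e * z ∉ B := fun hmem =>
    hcn (mem_iUnion.2 ⟨z, c + e * z, hmem, by simp⟩)
  simp only [B, mem_union, mem_setOf_eq, mem_insert_iff, mem_singleton_iff, not_or, id_eq, not_lt,
    nonpos_iff_eq_zero, setOf_eq_eq_singleton] at hB
  exact ⟨hB.1, hB.2.1, hB.2.2⟩

/-- A spectrum, snapped to finitely many atoms, with balanced labels near an admissible array. -/
theorem exists_atomic [IsProbabilityMeasure μ] (hμ : IsCompact μ.support) (hΛ : Admissible μ Λ)
    {e : ℝ} (he : 0 < e) :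
    ∃ (K : ℕ) (a : Atoms K) (f : ℝ → ℝ) (blk : (N : ℕ) → Fin N → Fin K) (Λ' : (N : ℕ) → Fin N → ℝ),
      a.law = μ.map f ∧ Monotone f ∧ (∀ x, |f x - x| ≤ e) ∧ Balanced a blk ∧ Admissible μ Λ' ∧
        ∀ N i, |a.lam (blk N i) - Λ' N i| ≤ e := by
  classical
  obtain ⟨c, hc⟩ := exists_offset (μ := μ) (e := e)
  set f := snap c e
  have hf : Monotone f := monotone_snap c he
  have hsnap : ∀ (x : ℝ) (z : ℤ), f x = c + e * z + e / 2 ↔ c + e * z ≤ x ∧ x < c + e * (z + 1) :=
    fun x z => snap_eq_iff c he x z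
  set S := sSup μ.support
  set I := sInf μ.support
  have hne : μ.support.Nonempty := Measure.nonempty_support (IsProbabilityMeasure.ne_zero μ)
  have hS : S ∈ μ.support := hμ.sSup_mem hne
  have hI : I ∈ μ.support := hμ.sInf_mem hne
  set cand : Finset ℝ := (Finset.Icc ⌊(I - c) / e⌋ ⌊(S - c) / e⌋).image fun z : ℤ => c + e * z + e / 2
  set A := cand.filter fun v => μ (f ⁻¹' {v}) ≠ 0 with hA
  -- interior points of the support give atoms
  have hint : ∀ x ∈ μ.support, (∀ z : ℤ, c + e * z ≠ x) → ∃ U ∈ 𝓝 x, ∀ y ∈ U, f y ∈ A := by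
    intro x hx hgrid
    set z := ⌊(x - c) / e⌋
    have hz := (snap_eq_iff c he x z).1 (by simp only [snap, z])
    have hzl : c + e * z < x := lt_of_le_of_ne hz.1 (hgrid z)
    refine ⟨Ioo (c + e * z) (c + e * (z + 1)), Ioo_mem_nhds hzl hz.2, fun y hy => ?_⟩
    rw [show f y = c + e * z + e / 2 from (snap_eq_iff c he y z).2 ⟨hy.1.le, hy.2⟩]
    refine Finset.mem_filter.2 ⟨Finset.mem_image.2 ⟨z, Finset.mem_Icc.2
      ⟨Int.floor_le_floor (by gcongr; exact csInf_le hμ.bddBelow hx),
        Int.floor_le_floor (by gcongr; exact le_csSup hμ.bddAbove hx)⟩, rfl⟩, ne_of_gt ?_⟩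
    refine ((Measure.mem_support_iff_forall x).1 hx _ (Ioo_mem_nhds hzl hz.2)).trans_le
      (measure_mono fun y' hy' => (snap_eq_iff c he y' z).2 ⟨hy'.1.le, hy'.2⟩)
  obtain ⟨US, hUS, hUSA⟩ := hint S hS fun z => (hc z).2.1
  obtain ⟨UI, hUI, hUIA⟩ := hint I hI fun z => (hc z).2.2
  have hSA : f S ∈ A := hUSA S (mem_of_mem_nhds hUS)
  have hae : ∀ᵐ x ∂μ, f x ∈ A := by
    have h1 : ∀ᵐ x ∂μ, ∀ v ∈ cand, f x = v → v ∈ A := by
      refine (Finset.eventually_all _).2 fun v hv => ?_
      by_cases h : μ (f ⁻¹' {v}) = 0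
      · filter_upwards [measure_eq_zero_iff_ae_notMem.1 h] with x hx hxv using absurd hxv hx
      · exact Eventually.of_forall fun x _ => Finset.mem_filter.2 ⟨hv, h⟩
    filter_upwards [h1, Measure.support_mem_ae (μ := μ)] with x hx hxs
    refine hx _ (Finset.mem_image.2 ⟨⌊(x - c) / e⌋, Finset.mem_Icc.2
      ⟨Int.floor_le_floor (by gcongr; exact csInf_le hμ.bddBelow hxs),
        Int.floor_le_floor (by gcongr; exact le_csSup hμ.bddAbove hxs)⟩, rfl⟩) rfl
  have hmap : ∀ s : Set ℝ, MeasurableSet s →
      μ.map f s = ∑ v ∈ A.filter (· ∈ s), μ (f ⁻¹' {v}) := fun s hs => by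
    rw [Measure.map_apply hf.measurable hs, sum_measure_preimage_singleton _ fun v _ =>
      hf.measurable (measurableSet_singleton v)]
    refine measure_congr ?_
    filter_upwards [hae] with x hx
    show (f x ∈ s) = (x ∈ f ⁻¹' ↑(A.filter (· ∈ s)))
    simp [hx]
  have htot : ∑ v ∈ A, μ.real (f ⁻¹' {v}) = 1 := by
    have h := hmap univ MeasurableSet.univ
    simp only [Set.mem_univ, Finset.filter_true] at h
    rw [Measure.map_apply hf.measurable MeasurableSet.univ, preimage_univ, measure_univ] at h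
    simp only [measureReal_def]
    rw [← ENNReal.toReal_sum fun v _ => measure_ne_top μ _, ← h, ENNReal.toReal_one]
  set eA := A.equivFin.symm with heA
  let a : Atoms A.card :=
    { lam := fun i => (eA i : ℝ)
      wt := fun i => μ.real (f ⁻¹' {(eA i : ℝ)})
      pos := fun i => ENNReal.toReal_pos (Finset.mem_filter.1 (eA i).2).2 (measure_ne_top μ _)
      total := by
        rw [eA.sum_comp (fun v : A => μ.real (f ⁻¹' {(v : ℝ)})),
          Finset.sum_coe_sort A (fun v => μ.real (f ⁻¹' {v})), htot]
      inj := Subtype.coe_injective.comp eA.injective }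
  set Λ' : (N : ℕ) → Fin N → ℝ := fun N i => if f (Λ N i) ∈ A then Λ N i else S with hΛ'
  have hmem : ∀ N i, f (Λ' N i) ∈ A := fun N i => by
    simp only [hΛ']
    split_ifs with h
    exacts [h, hSA]
  set blk : (N : ℕ) → Fin N → Fin A.card := fun N i => A.equivFin ⟨f (Λ' N i), hmem N i⟩ with hblk
  -- shares of cells
  have hcell : ∀ v ∈ A, Tendsto (fun N => ((Finset.univ.filter fun i => f (Λ N i) = v).card : ℝ) / N)
      atTop (𝓝 (μ.real (f ⁻¹' {v}))) := by
    intro v hv
    obtain ⟨z, -, rfl⟩ := Finset.mem_image.1 (Finset.mem_filter.1 hv).1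
    have hle : c + e * z ≤ c + e * (z + 1) := by linarith
    have h2 := tendsto_share_lt hΛ (x := c + e * (z + 1)) (by simpa using (hc (z + 1)).1)
    have h1 := tendsto_share_lt hΛ (hc z).1
    have hpre : f ⁻¹' {c + e * z + e / 2} = Iio (c + e * (z + 1)) \ Iio (c + e * z) := by
      ext x
      rw [mem_preimage, mem_singleton_iff, hsnap, Set.mem_sdiff, mem_Iio, mem_Iio, not_lt]
      exact and_comm
    rw [hpre, measureReal_sdiff (Iio_subset_Iio hle) measurableSet_Iio]
    refine (h2.sub h1).congr fun N => ?_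
    rw [← sub_div]
    congr 1
    have e1 : (Finset.univ.filter fun i => f (Λ N i) = c + e * z + e / 2) =
        (Finset.univ.filter fun i => Λ N i < c + e * (z + 1)) \
          (Finset.univ.filter fun i => Λ N i < c + e * z) := by
      ext i
      simp only [Finset.mem_filter, Finset.mem_sdiff, Finset.mem_univ, true_and, not_lt,
        hsnap]
      exact and_comm
    rw [e1, Finset.cast_card_sdiff]
    intro i hi
    simp only [Finset.mem_filter, Finset.mem_univ, true_and] at hi ⊢
    linarith
  have hbad : Tendsto (fun N => ((Finset.univ.filter fun i => f (Λ N i) ∉ A).card : ℝ) / N) atTop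
      (𝓝 0) := by
    have h := (tendsto_finsetSum A hcell).const_sub 1
    rw [htot, sub_self] at h
    refine h.congr' ((eventually_gt_atTop 0).mono fun N hN => ?_)
    have hN' : (0 : ℝ) < N := by exact_mod_cast hN
    rw [← Finset.sum_div, eq_div_iff hN'.ne', sub_mul, one_mul, div_mul_cancel₀ _ hN'.ne']
    have h1 := Finset.card_filter_add_card_filter_not (s := (Finset.univ : Finset (Fin N)))
      (fun i => f (Λ N i) ∈ A)
    have h2 : (Finset.univ.filter fun i => f (Λ N i) ∈ A).card =
        ∑ v ∈ A, (Finset.univ.filter fun i => f (Λ N i) = v).card := by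
      refine (Finset.card_eq_sum_card_fiberwise (f := fun i => f (Λ N i)) (t := A)
        (s := Finset.univ.filter fun i => f (Λ N i) ∈ A) fun i hi => (Finset.mem_filter.1 hi).2).trans ?_
      refine Finset.sum_congr rfl fun v hv => congrArg Finset.card ?_
      ext i
      simp only [Finset.mem_filter, Finset.mem_univ, true_and]
      exact ⟨fun h => h.2, fun h => ⟨h ▸ hv, h⟩⟩
    rw [h2, Finset.card_univ, Fintype.card_fin] at h1
    have h3 : ((∑ v ∈ A, (Finset.univ.filter fun i => f (Λ N i) = v).card : ℕ) : ℝ) +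
        (Finset.univ.filter fun i => f (Λ N i) ∉ A).card = N := by exact_mod_cast h1
    push_cast at h3
    linarith
  have hbal : Balanced a blk := by
    intro j
    set v : ℝ := (eA j : ℝ) with hv
    have hdiff : ∀ N, |((Finset.univ.filter fun i => blk N i = j).card : ℝ) / N -
        ((Finset.univ.filter fun i => f (Λ N i) = v).card : ℝ) / N| ≤
        ((Finset.univ.filter fun i => f (Λ N i) ∉ A).card : ℝ) / N := fun N => by
      rw [← sub_div, abs_div, Nat.abs_cast]
      refine div_le_div_of_nonneg_right ?_ (Nat.cast_nonneg N)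
      have e1 : (Finset.univ.filter fun i => blk N i = j) =
          Finset.univ.filter fun i => f (Λ' N i) = v := Finset.filter_congr fun i _ => by
        simp only [hblk, hv, heA]
        rw [← A.equivFin.symm.injective.eq_iff, Equiv.symm_apply_apply, Subtype.ext_iff]
      rw [e1]
      have hs : ∀ i, f (Λ N i) = v → f (Λ' N i) = v := fun i hi => by
        simp only [hΛ']
        rw [if_pos (hi ▸ (eA j).2)]
        exact hi
      have hle := Finset.card_le_card (show (Finset.univ.filter fun i => f (Λ' N i) = v) ⊆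
          (Finset.univ.filter fun i => f (Λ N i) = v) ∪ (Finset.univ.filter fun i => f (Λ N i) ∉ A) by
        intro i hi
        simp only [Finset.mem_union, Finset.mem_filter, Finset.mem_univ, true_and, hΛ'] at hi ⊢
        split_ifs at hi with h
        exacts [Or.inl hi, Or.inr h])
      have hge := Finset.card_le_card (show (Finset.univ.filter fun i => f (Λ N i) = v) ⊆
          Finset.univ.filter fun i => f (Λ' N i) = v by
        intro i hi
        simp only [Finset.mem_filter, Finset.mem_univ, true_and] at hi ⊢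
        exact hs i hi)
      have h1 := hle.trans (Finset.card_union_le _ _)
      rw [abs_of_nonneg (sub_nonneg.2 (by exact_mod_cast hge)), sub_le_iff_le_add']
      exact_mod_cast h1
    have h := squeeze_zero_norm (fun N => (Real.norm_eq_abs _).trans_le (hdiff N)) hbad
    have h' := h.add (hcell v (eA j).2)
    simpa [a] using h'
  have hadm : Admissible μ Λ' := by
    refine ⟨fun φ => ?_, ?_, ?_⟩
    · have hb := hbad.const_mul (2 * ‖φ‖)
      rw [mul_zero] at hb
      have h : Tendsto (fun N : ℕ => (N : ℝ)⁻¹ * ∑ i, φ (Λ' N i) - (N : ℝ)⁻¹ * ∑ i, φ (Λ N i))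
          atTop (𝓝 0) := by
        refine squeeze_zero_norm (fun N => ?_) hb
        rw [← mul_sub, ← Finset.sum_sub_distrib, Real.norm_eq_abs, abs_mul, abs_inv, Nat.abs_cast,
          ← mul_div_assoc, div_eq_inv_mul]
        refine mul_le_mul_of_nonneg_left ((Finset.abs_sum_le_sum_abs _ _).trans
          ((Finset.sum_le_sum fun i _ => ?_).trans_eq
            (by rw [mul_comm, ← Finset.sum_boole, Finset.sum_mul]))) (by positivity)
        by_cases hm : f (Λ N i) ∈ A
        · simp [hΛ', hm]
        · rw [if_pos hm, one_mul]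
          exact (abs_sub _ _).trans (by
            linarith [φ.norm_coe_le_norm (Λ' N i), φ.norm_coe_le_norm (Λ N i),
              Real.norm_eq_abs (φ (Λ' N i)), Real.norm_eq_abs (φ (Λ N i))])
      simpa using h.add (hΛ.weak φ)
    · have hup := hΛ.top.max (tendsto_const_nhds (x := S))
      rw [max_self] at hup
      refine tendsto_of_tendsto_of_tendsto_of_le_of_le' hΛ.top hup ?_ ?_
      · filter_upwards [hΛ.top.eventually_mem hUS, eventually_gt_atTop 0] with N hN hN0
        have : Nonempty (Fin N) := ⟨⟨0, hN0⟩⟩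
        obtain ⟨i, hi⟩ := exists_eq_ciSup_of_finite (f := Λ N)
        calc ⨆ i, Λ N i = Λ' N i := by simp [hΛ', hi, hUSA _ hN]
          _ ≤ _ := le_ciSup (Finite.bddAbove_range _) i
      · filter_upwards [eventually_gt_atTop 0] with N hN0
        have : Nonempty (Fin N) := ⟨⟨0, hN0⟩⟩
        refine ciSup_le fun i => ?_
        simp only [hΛ']
        split_ifs
        · exact le_max_of_le_left (le_ciSup (Finite.bddAbove_range _) i)
        · exact le_max_right _ _
    · have hlow := hΛ.bot.min (tendsto_const_nhds (x := S))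
      rw [min_eq_left (Real.sInf_le_sSup _ hμ.bddBelow hμ.bddAbove)] at hlow
      refine tendsto_of_tendsto_of_tendsto_of_le_of_le' hlow hΛ.bot ?_ ?_
      · filter_upwards [eventually_gt_atTop 0] with N hN0
        have : Nonempty (Fin N) := ⟨⟨0, hN0⟩⟩
        refine le_ciInf fun i => ?_
        simp only [hΛ']
        split_ifs
        · exact min_le_of_left_le (ciInf_le (Finite.bddBelow_range _) i)
        · exact min_le_right _ _
      · filter_upwards [hΛ.bot.eventually_mem hUI, eventually_gt_atTop 0] with N hN hN0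
        have : Nonempty (Fin N) := ⟨⟨0, hN0⟩⟩
        obtain ⟨i, hi⟩ := exists_eq_ciInf_of_finite (f := Λ N)
        calc ⨅ i, Λ' N i ≤ Λ' N i := ciInf_le (Finite.bddBelow_range _) i
          _ = _ := by simp [hΛ', hi, hUIA _ hN]
  refine ⟨A.card, a, f, blk, Λ', ?_, hf, abs_snap_sub_le c he, hbal, hadm, fun N i => ?_⟩
  · refine Measure.ext fun s hs => ?_
    rw [hmap s hs, Finset.sum_filter, ← Finset.sum_coe_sort A, ← eA.sum_comp]
    simp only [Atoms.law, Measure.coe_finsetSum, Finset.sum_apply, Measure.smul_apply, smul_eq_mul,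
      Measure.dirac_apply' _ hs]
    refine Finset.sum_congr rfl fun j _ => ?_
    simp only [a]
    by_cases h : (eA j : ℝ) ∈ s
    · rw [if_pos h, indicator_of_mem h, Pi.one_apply, mul_one, ofReal_measureReal]
    · rw [if_neg h, indicator_of_notMem h, mul_zero]
  · simp only [a, hblk, heA, Equiv.symm_apply_apply]
    exact abs_snap_sub_le c he _

end Vale.Agent.P166F
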