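import Vale.Agent.P166F.Upper
import Vale.Agent.P166F.Up.StepLaw
import Vale.Agent.P166F.Main.Atomic
import Vale.Agent.P166F.Haar.Conc
import Vale.Agent.P166N.Spectrum.Main
import Vale.Agent.P166.Universality

/-!
P166: the upper bound for every compactly supported spectrum, and the Markov step to probability.
-/

namespace Vale.Agent.P166F

open MeasureTheory Filter
open scoped Topology
open Vale.Agent.P166 (pressure Admissible)
open Vale.Agent.P166N.Spectrum (OrthInvLaw)

theorem orth_conc {μ : Measure ℝ} {β : ℝ} {Λ : (N : ℕ) → Fin N → ℝ} (hΛ : Admissible μ Λ)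
    {ν : (N : ℕ) → Measure (Fin N → Fin N → ℝ)} (hν : ∀ N, OrthInvLaw N (ν N)) :
    Tendsto (fun N => ∫ U, |pressure N β (Λ N) U - ∫ U', pressure N β (Λ N) U' ∂ν N| ∂ν N) atTop
      (𝓝 0) :=
  orth_conc' hΛ hν

/-- Arrays within `ε` of each other have mean pressures within `β ε`. -/
lemma abs_meanPress_sub_le {N : ℕ} {ν : Measure (Fin N → Fin N → ℝ)} (hν : OrthInvLaw N ν) {β : ℝ}
    (hβ : 0 ≤ β) (hN : 0 < N) {l l' : Fin N → ℝ} {ε : ℝ} (h : ∀ i, |l i - l' i| ≤ ε) :
    |(∫ U, pressure N β l U ∂ν) - ∫ U, pressure N β l' U ∂ν| ≤ β * ε := by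
  have := hν.prob
  have hi := fun l => P166.integrable_pressure hν.rowInvariant hβ l
  rw [← integral_sub (hi l) (hi l')]
  refine abs_integral_le_integral_abs.trans ((integral_mono_ae ((hi l).sub (hi l')).abs
    (integrable_const (β * ε)) (hν.orth.mono fun U hU => ?_)).trans_eq (by simp))
  refine (P166.abs_pressure_sub_le hβ l l' U).trans ?_
  calc ∑ i, |l i - l' i| * (P166.weight β l i U + P166.weight β l' i U)
      ≤ ∑ i, ε * (P166.weight β l i U + P166.weight β l' i U) :=
        Finset.sum_le_sum fun i _ => mul_le_mul_of_nonneg_right (h i)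
          (add_nonneg (P166.weight_nonneg hβ l i U) (P166.weight_nonneg hβ l' i U))
    _ = β * ε := by
        rw [← Finset.mul_sum, Finset.sum_add_distrib, P166.sum_weight β l hU hN,
          P166.sum_weight β l' hU hN]
        ring

/-- An array of any spectrum has mean pressure eventually below every value of the formula. -/
theorem upper_formula {μ : Measure ℝ} [IsProbabilityMeasure μ] (hμ : IsCompact μ.support)
    {β : ℝ} (hβ : 0 < β) {Λ : (N : ℕ) → Fin N → ℝ} (hΛ : Admissible μ Λ)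
    {ν : (N : ℕ) → Measure (Fin N → Fin N → ℝ)} (hν : ∀ N, OrthInvLaw N (ν N)) {η : ℝ} (hη : 0 < η) :
    ∀ᶠ N in atTop, ∫ U, pressure N β (Λ N) U ∂ν N ≤ sInf (formulaValues μ β) + η := by
  obtain ⟨-, hne⟩ := formula_bddBelow hμ hβ.le
  set ε := η / (8 * β) with hεdef
  have hε : 0 < ε := by positivity
  have hβε : β * ε = η / 8 := by rw [hεdef]; field_simp
  obtain ⟨K, a, f, blk, Λ', hlaw, hf, hfx, hbal, hΛ', hnear⟩ := exists_atomic hμ hΛ hε
  obtain ⟨v, ⟨k, m, p, hm, hp, rfl⟩, hv⟩ := exists_lt_of_csInf_lt hne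
    (show sInf (formulaValues μ β) < sInf (formulaValues μ β) + η / 8 by linarith)
  have hup := upper_bound a hβ hbal hν hm hp (η := η / 8) (by linarith)
  have huni := (Vale.Agent.P166.Universality.result μ hμ β hβ Λ Λ' hΛ hΛ' ν
    fun N => (hν N).rowInvariant).1
  have hE : energy a.law β (stepLaw m p) ≤ energy μ β (stepLaw m p) + β * ε := by
    rw [hlaw]
    linarith [(abs_le.1 (energy_snap hμ hf hfx hβ.le (olaw_stepLaw hm hp))).2]
  filter_upwards [hup, huni.eventually (eventually_le_nhds (show (0 : ℝ) < η / 8 by linarith)),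
    eventually_gt_atTop 0] with N h1 h3 hN
  have h4 := abs_le.1 (abs_meanPress_sub_le (hν N) hβ.le hN (hnear N))
  simp only [meanPress] at h1
  linarith

/-- A bound on the mean passes to a bound in probability. -/
theorem tendsto_meas_gt {μ : Measure ℝ} {β : ℝ} (hβ : 0 ≤ β) {Λ : (N : ℕ) → Fin N → ℝ}
    (hΛ : Admissible μ Λ) {ν : (N : ℕ) → Measure (Fin N → Fin N → ℝ)}
    (hν : ∀ N, OrthInvLaw N (ν N)) {c δ : ℝ} (hδ : 0 < δ)
    (hc : ∀ᶠ N in atTop, ∫ U, pressure N β (Λ N) U ∂ν N ≤ c + δ / 2) :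
    Tendsto (fun N => ν N {U | c + δ < pressure N β (Λ N) U}) atTop (𝓝 0) := by
  have hB : Tendsto (fun N => ENNReal.ofReal ((δ / 2)⁻¹ *
      ∫ U, |pressure N β (Λ N) U - ∫ U', pressure N β (Λ N) U' ∂ν N| ∂ν N)) atTop (𝓝 0) := by
    have := (ENNReal.continuous_ofReal.tendsto _).comp
      ((orth_conc (β := β) hΛ hν).const_mul ((δ / 2)⁻¹))
    simpa [Function.comp_def] using this
  refine tendsto_of_tendsto_of_tendsto_of_le_of_le' tendsto_const_nhds hB
    (Eventually.of_forall fun _ => zero_le) (hc.mono fun N hN => ?_)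
  have := (hν N).prob
  set X := fun U => |pressure N β (Λ N) U - ∫ U', pressure N β (Λ N) U' ∂ν N| with hX
  have hi : Integrable X (ν N) :=
    ((P166.integrable_pressure (hν N).rowInvariant hβ (Λ N)).sub (integrable_const _)).abs
  have hsub : {U | c + δ < pressure N β (Λ N) U} ⊆ {U | δ / 2 ≤ X U} := fun U hU => by
    simp only [Set.mem_ofPred_eq, hX] at hU ⊢
    linarith [le_abs_self (pressure N β (Λ N) U - ∫ U', pressure N β (Λ N) U' ∂ν N)]
  refine (measure_mono hsub).trans ?_
  have hM := mul_meas_ge_le_integral_of_nonneg (Eventually.of_forall fun U => abs_nonneg _) hi (δ / 2)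
  rw [← ofReal_measureReal]
  refine ENNReal.ofReal_le_ofReal ?_
  rw [le_inv_mul_iff₀ (half_pos hδ)]
  exact hM

/-- Orthogonally invariant laws exist in every dimension. -/
theorem exists_invariant : ∃ ν : (N : ℕ) → Measure (Fin N → Fin N → ℝ), ∀ N, OrthInvLaw N (ν N) :=
  ⟨_, fun N => (Vale.Agent.P166N.Spectrum.exists_orthInvLaw N).choose_spec⟩

end Vale.Agent.P166F
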